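import Vale.Agent.P243.Defs

/-!
Cylinders over triangles for a direction parallel to a facet: the relative base area.
-/

open MeasureTheory Set
open scoped ENNReal

namespace Vale.Agent.P243.Direction

/-- The standard triangle. -/
def stdTri : Set (Fin 2 → ℝ) := {p | 0 ≤ p 0 ∧ 0 ≤ p 1 ∧ p 0 + p 1 ≤ 1}

lemma stdTri_subset : stdTri ⊆ Icc (0 : Fin 2 → ℝ) 1 := by
  intro p hp
  obtain ⟨h0, h1, h2⟩ := hp
  constructor <;> intro i <;> fin_cases i <;> simp <;> linarith

lemma stdTri_measurable : MeasurableSet stdTri := by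
  apply IsClosed.measurableSet
  exact (isClosed_le continuous_const (continuous_apply 0)).inter
    ((isClosed_le continuous_const (continuous_apply 1)).inter
      (isClosed_le ((continuous_apply 0).add (continuous_apply 1)) continuous_const))

lemma stdTri_fin : volume stdTri ≠ ⊤ :=
  ((measure_mono stdTri_subset).trans_lt isCompact_Icc.measure_lt_top).ne

lemma stdTri_pos : 0 < volume stdTri := by
  have hsub : Set.pi univ (fun _ : Fin 2 => Ioo (0 : ℝ) (1 / 2)) ⊆ stdTri := by
    intro p hp
    have h0 := hp 0 (mem_univ _)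
    have h1 := hp 1 (mem_univ _)
    exact ⟨h0.1.le, h1.1.le, by linarith [h0.2, h1.2]⟩
  refine lt_of_lt_of_le ?_ (measure_mono hsub)
  exact (isOpen_set_pi finite_univ fun _ _ => isOpen_Ioo).measure_pos _
    ⟨fun _ => 1 / 4, fun i _ => by constructor <;> norm_num⟩

/-- The linear part of the map onto the small triangle. -/
noncomputable def squash (w m h : ℝ) : (Fin 2 → ℝ) →ₗ[ℝ] (Fin 2 → ℝ) :=
  Matrix.toLin' !![w, m; 0, h]

lemma squash_apply (w m h : ℝ) (p : Fin 2 → ℝ) :
    squash w m h p = ![w * p 0 + m * p 1, h * p 1] := by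
  funext i
  fin_cases i <;> simp [squash, Matrix.mulVec, dotProduct, Fin.sum_univ_two]

lemma det_squash (w m h : ℝ) : LinearMap.det (squash w m h) = w * h := by
  simp [squash, LinearMap.det_toLin', Matrix.det_fin_two]

/-- The small triangle with base from `L` to `R` and apex at height `h` over `A`. -/
def tri (L R A h : ℝ) : Set (Fin 2 → ℝ) :=
  {p | 0 ≤ p 1 ∧ (A - L) * p 1 ≤ (p 0 - L) * h ∧ (R - A) * p 1 ≤ (R - p 0) * h}

lemma tri_eq {L R A h : ℝ} (hLR : L < R) (hh : 0 < h) :
    tri L R A h = (fun x => x + ![L, 0]) '' (squash (R - L) (A - L) h '' stdTri) := by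
  ext p
  simp only [tri, mem_setOf_eq, image_image, mem_image, squash_apply]
  constructor
  · rintro ⟨h1, h2, h3⟩
    have hw : 0 < R - L := by linarith
    refine ⟨![((p 0 - L) - (A - L) * (p 1 / h)) / (R - L), p 1 / h], ⟨?_, ?_, ?_⟩, ?_⟩
    · simp only [Matrix.cons_val_zero]
      refine div_nonneg ?_ hw.le
      rw [sub_nonneg, mul_div_assoc', div_le_iff₀ hh]; linarith
    · simpa using div_nonneg h1 hh.le
    · simp only [Matrix.cons_val_zero, Matrix.cons_val_one]
      rw [div_add' _ _ _ hw.ne', div_le_one hw]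
      have e : ((p 0 - L) - (A - L) * (p 1 / h) + p 1 / h * (R - L)) =
          ((p 0 - L) * h + (R - A) * p 1) / h := by field_simp; ring
      rw [e, div_le_iff₀ hh]; linarith
    · funext i
      fin_cases i
      · simp; field_simp; ring
      · simp; field_simp
  · rintro ⟨q, ⟨q0, q1, q2⟩, rfl⟩
    simp only [Pi.add_apply, Matrix.cons_val_zero, Matrix.cons_val_one]
    have := mul_nonneg (sub_nonneg.2 hLR.le) hh.le
    have := mul_nonneg this q0
    have := mul_nonneg (mul_nonneg (sub_nonneg.2 hLR.le) hh.le) (sub_nonneg.2 q2)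
    refine ⟨by nlinarith, by linarith, by linarith⟩

lemma tri_volume {L R A h : ℝ} (hLR : L < R) (hh : 0 < h) :
    volume (tri L R A h) = ENNReal.ofReal ((R - L) * h) * volume stdTri := by
  rw [tri_eq hLR hh, image_add_right, measure_preimage_add_right,
    Measure.addHaar_image_linearMap, det_squash, abs_of_pos (mul_pos (sub_pos.2 hLR) hh)]

lemma tri_measurable (L R A h : ℝ) : MeasurableSet (tri L R A h) := by
  apply IsClosed.measurableSet
  exact (isClosed_le continuous_const (continuous_apply 1)).inter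
    ((isClosed_le ((continuous_apply 1).const_mul _)
      (((continuous_apply 0).sub continuous_const).mul continuous_const)).inter
      (isClosed_le ((continuous_apply 1).const_mul _)
        ((continuous_const.sub (continuous_apply 0)).mul continuous_const)))

/-- For affine coordinates vanishing along `v`, triangles give cylinders of known relative area. -/
lemma prism (v : Space) (hv : v ≠ 0) (K : Set Space) (σ : Space →ₗ[ℝ] (Fin 2 → ℝ))
    (c : Fin 2 → ℝ) (hσv : σ v = 0) (hker : ∀ x, σ x = 0 → ∃ t : ℝ, x = t • v)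
    (hK : ∀ x ∈ K, σ x + c ∈ stdTri) (hsurj : ∀ p ∈ stdTri, ∃ x ∈ K, σ x + c = p)
    {L R A h : ℝ} (hLR : L < R) (hh : 0 < h) :
    ∃ u : Space, ‖u‖ = 1 ∧ ∃ B : Set (perp u), MeasurableSet B ∧ FinitePlaneArea u B ∧
      0 < projArea K u ∧ planeArea u B / projArea K u = (R - L) * h ∧
      {x | σ x + c ∈ tri L R A h} ⊆ axisCylinder u B := by
  set u : Space := ‖v‖⁻¹ • v with hu
  have hu1 : ‖u‖ = 1 := by
    rw [hu, norm_smul, norm_inv, norm_norm, inv_mul_cancel₀ (norm_ne_zero_iff.2 hv)]
  have hσu : σ u = 0 := by simp [hu, hσv]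
  set W := perp u with hW
  -- projecting does not change the coordinates
  have hproj : ∀ x, σ (W.orthogonalProjectionOnto x : Space) = σ x := by
    intro x
    have hmem : x - (W.orthogonalProjectionOnto x : Space) ∈ Wᗮ :=
      W.sub_starProjection_mem_orthogonal x
    have hWo : Wᗮ = ℝ ∙ u := Submodule.orthogonal_orthogonal (ℝ ∙ u)
    replace hmem := (SetLike.ext_iff.1 hWo _).1 hmem
    obtain ⟨t, ht⟩ := Submodule.mem_span_singleton.1 hmem
    have : σ (x - (W.orthogonalProjectionOnto x : Space)) = 0 := by rw [← ht]; simp [hσu]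
    rw [map_sub, sub_eq_zero] at this
    exact this.symm
  let e₀ : W →ₗ[ℝ] (Fin 2 → ℝ) := σ.comp W.subtype
  have hinj : Function.Injective e₀ := by
    rw [injective_iff_map_eq_zero]
    intro y hy
    obtain ⟨t, ht⟩ := hker (y : Space) hy
    have h0 := Submodule.mem_orthogonal_singleton_iff_inner_right.1 y.2
    apply Subtype.ext
    rw [ht, hu, inner_smul_left, inner_smul_right] at h0
    simp only [RCLike.conj_to_real, inner_self_eq_norm_sq_to_K, RCLike.ofReal_real_eq_id, id_eq,
      mul_eq_zero, inv_eq_zero, norm_eq_zero, pow_eq_zero_iff two_ne_zero, hv, or_self, or_false,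
      false_or] at h0
    simp [ht, h0]
  have hdim : Module.finrank ℝ W = 2 := by
    have : Fact (Module.finrank ℝ Space = 2 + 1) := ⟨by simp⟩
    exact Submodule.finrank_orthogonal_span_singleton (by intro h0; simp [h0] at hu1)
  let e : W ≃ₗ[ℝ] (Fin 2 → ℝ) :=
    LinearEquiv.ofBijective e₀ ⟨hinj, (LinearMap.injective_iff_surjective_of_finrank_eq_finrank
      (by rw [hdim]; simp)).1 hinj⟩
  let f : W ≃L[ℝ] (Fin 2 → ℝ) := e.toContinuousLinearEquiv
  have : Measure.IsAddHaarMeasure (Measure.map f (volume : Measure W)) :=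
    ContinuousLinearEquiv.isAddHaarMeasure_map f volume
  obtain ⟨k, hk⟩ : ∃ k : ℝ≥0∞, k ≠ 0 ∧ k ≠ ⊤ ∧
      Measure.map f (volume : Measure W) = k • (volume : Measure (Fin 2 → ℝ)) :=
    ⟨_, by simpa using (Measure.addHaarScalarFactor_pos_of_isAddHaarMeasure
        (Measure.map f (volume : Measure W)) volume).ne', ENNReal.coe_ne_top,
      Measure.isAddLeftInvariant_eq_smul (Measure.map f (volume : Measure W)) volume⟩
  have hvol : ∀ S : Set (Fin 2 → ℝ), MeasurableSet S →
      (volume : Measure W) {y | σ (y : Space) + c ∈ S} = k * volume S := by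
    intro S hS
    have e1 : {y : W | σ (y : Space) + c ∈ S} = f ⁻¹' ((fun p => p + c) ⁻¹' S) := rfl
    have hS' : MeasurableSet ((fun p : Fin 2 → ℝ => p + c) ⁻¹' S) :=
      hS.preimage (measurable_id.add_const c)
    rw [e1, ← Measure.map_apply f.continuous.measurable hS',
      hk.2.2, Measure.smul_apply, smul_eq_mul, measure_preimage_add_right]
  have hshadow : W.orthogonalProjectionOnto '' K = {y : W | σ (y : Space) + c ∈ stdTri} := by
    ext y
    constructor
    · rintro ⟨x, hx, rfl⟩
      show σ _ + c ∈ stdTri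
      rw [hproj]; exact hK x hx
    · intro hy
      obtain ⟨x, hx, he⟩ := hsurj _ hy
      refine ⟨x, hx, hinj ?_⟩
      show σ (W.orthogonalProjectionOnto x : Space) = σ (y : Space)
      rw [hproj]; exact add_right_cancel he
  refine ⟨u, hu1, {y | σ (y : Space) + c ∈ tri L R A h}, ?_, ?_, ?_, ?_, ?_⟩
  · exact (tri_measurable L R A h).preimage
      ((σ.continuous_of_finiteDimensional.measurable.comp measurable_subtype_coe).add_const c)
  · show (volume : Measure W) _ ≠ ⊤
    rw [hvol _ (tri_measurable L R A h), tri_volume hLR hh]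
    exact ENNReal.mul_ne_top hk.2.1 (ENNReal.mul_ne_top ENNReal.ofReal_ne_top stdTri_fin)
  · show 0 < (volume : Measure W).real _
    rw [hshadow, measureReal_def, hvol _ stdTri_measurable]
    exact ENNReal.toReal_pos (mul_ne_zero hk.1 stdTri_pos.ne') (ENNReal.mul_ne_top hk.2.1 stdTri_fin)
  · show (volume : Measure W).real _ / (volume : Measure W).real _ = _
    rw [hshadow, measureReal_def, measureReal_def, hvol _ stdTri_measurable,
      hvol _ (tri_measurable L R A h), tri_volume hLR hh, ENNReal.toReal_mul, ENNReal.toReal_mul,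
      ENNReal.toReal_mul, ENNReal.toReal_ofReal (mul_pos (sub_pos.2 hLR) hh).le]
    have h1 : k.toReal ≠ 0 := ENNReal.toReal_ne_zero.2 ⟨hk.1, hk.2.1⟩
    have h2 : (volume stdTri).toReal ≠ 0 := ENNReal.toReal_ne_zero.2 ⟨stdTri_pos.ne', stdTri_fin⟩
    field_simp
  · intro x hx
    show σ (W.orthogonalProjectionOnto x : Space) + c ∈ tri L R A h
    rw [hproj]; exact hx

end Vale.Agent.P243.Direction
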